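import Vale.Agent.P183.H330T.Main

/-!
The extension theorems over lattices with tree-like covers, in their final form.
-/

namespace Vale.Agent.P183.H330T

open Vale.Agent.P183 Vale.Agent.P183.H330

variable {L K : Type} [Lattice L] [Lattice K]

/-- **Distributive fibres over a lattice with tree-like lower covers.** -/
theorem ext_tree [Finite L] (f : LatticeHom L K) (hf : Function.Surjective f)
    (hK : Representable K) (hT : ∀ t : K, TreeCovers t)
    (hbot : ∃ (G : Type) (_ : Group G) (_ : Finite G) (H : Subgroup G),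
      Nonempty ({l : L // IsMin (f l)} ≃o {W : Subgroup G // H ≤ W}))
    (hd : ∀ x y z, f x = f y → f y = f z → ¬ IsMin (f x) → (x ⊓ y) ⊔ z = (x ⊔ z) ⊓ (y ⊔ z)) :
    Representable L := by
  have hKf : Finite K := Finite.of_surjective f hf
  have hKn : Nonempty K := hK.nonempty
  obtain ⟨b0, hb0⟩ := exists_least (K := K)
  obtain ⟨G, hG, hGf, H, ⟨θ⟩⟩ := hbot
  let e : {l : L // f l = b0} ≃o {l : L // IsMin (f l)} :=
    { toFun := fun l => ⟨l.1, (isMin_iff hb0 _).2 l.2⟩
      invFun := fun l => ⟨l.1, (isMin_iff hb0 _).1 l.2⟩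
      left_inv := fun _ => rfl
      right_inv := fun _ => rfl
      map_rel_iff' := Iff.rfl }
  exact ext_bottom2 hf b0 hb0 ⟨G, hG, hGf, H, ⟨e.trans θ⟩⟩
    (fun x y z h1 h2 h3 => hd x y z h1 h2 (fun h => h3 ((isMin_iff hb0 _).1 h))) hT hK

/-- All fibres distributive. -/
theorem ext_tree' [Finite L] (f : LatticeHom L K) (hf : Function.Surjective f)
    (hK : Representable K) (hT : ∀ t : K, TreeCovers t)
    (hd : ∀ x y z, f x = f y → f y = f z → (x ⊓ y) ⊔ z = (x ⊔ z) ⊓ (y ⊔ z)) :
    Representable L := by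
  have hKf : Finite K := Finite.of_surjective f hf
  have hKn : Nonempty K := hK.nonempty
  obtain ⟨b0, hb0⟩ := exists_least (K := K)
  exact ext_bottom2 hf b0 hb0 (fibre_interval f hf b0 (fun x y z hx hy hz =>
    hd x y z (hx.trans hy.symm) (hy.trans hz.symm)))
    (fun x y z h1 h2 _ => hd x y z h1 h2) hT hK

/-- The dual statement: distributive fibres over a lattice with tree-like upper covers. -/
theorem ext_tree_dual [Finite L] (f : LatticeHom L K) (hf : Function.Surjective f)
    (hK : Representable K) (hT : ∀ t : Kᵒᵈ, TreeCovers t)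
    (hd : ∀ x y z, f x = f y → f y = f z → (x ⊔ y) ⊓ z = (x ⊓ z) ⊔ (y ⊓ z)) :
    Representable L := by
  have h1 : Representable Lᵒᵈ := by
    let g : LatticeHom Lᵒᵈ Kᵒᵈ :=
      { toFun := fun x => OrderDual.toDual (f (OrderDual.ofDual x))
        map_sup' := fun x y => congrArg OrderDual.toDual (map_inf f _ _)
        map_inf' := fun x y => congrArg OrderDual.toDual (map_sup f _ _) }
    have hg : Function.Surjective g := by
      intro k
      obtain ⟨l, hl⟩ := hf (OrderDual.ofDual k)
      exact ⟨OrderDual.toDual l, congrArg OrderDual.toDual hl⟩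
    have hLf : Finite Lᵒᵈ := inferInstanceAs (Finite L)
    refine ext_tree' g hg hK.dual hT ?_
    intro x y z h1 h2
    exact hd (OrderDual.ofDual x) (OrderDual.ofDual y) (OrderDual.ofDual z) h1 h2
  exact h1.dual

/-- An element with at most two lower covers has tree-like lower covers. -/
theorem treeCovers_of_two {t : K}
    (h : ∀ p q r : K, p ⋖ t → q ⋖ t → r ⋖ t → p = q ∨ q = r ∨ p = r) : TreeCovers t := by
  classical
  by_cases h1 : ∃ p, p ⋖ t
  swap
  · refine ⟨0, fun _ => t, fun r => ⟨fun hr => absurd ⟨r, hr⟩ h1, ?_⟩, ?_⟩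
    · rintro ⟨i, hi, _⟩; omega
    · intro j hj; omega
  obtain ⟨p, hp⟩ := h1
  by_cases h2 : ∃ q, q ⋖ t ∧ q ≠ p
  · obtain ⟨q, hq, hqp⟩ := h2
    refine ⟨2, fun i => if i = 0 then p else q, fun r => ⟨fun hr => ?_, ?_⟩, ?_⟩
    · rcases h p q r hp hq hr with h3 | h3 | h3
      · exact absurd h3.symm hqp
      · exact ⟨1, by omega, by simpa using h3⟩
      · exact ⟨0, by omega, by simpa using h3⟩
    · rintro ⟨i, hi, rfl⟩
      by_cases hi0 : i = 0
      · simpa [hi0] using hp
      · simpa [hi0] using hq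
    · intro j hj hj0
      refine ⟨0, hj0, fun i hi => ?_⟩
      have : i = 0 := by omega
      subst this
      exact inf_le_left
  · refine ⟨1, fun _ => p, fun r => ⟨fun hr => ?_, ?_⟩, ?_⟩
    · refine ⟨0, by omega, ?_⟩
      by_contra h3
      exact h2 ⟨r, hr, fun h4 => h3 h4.symm⟩
    · rintro ⟨i, hi, rfl⟩; exact hp
    · intro j hj hj0; omega

/-- A finite distributive lattice is representable. -/
theorem representable_distrib (C : Type) [Lattice C] [Finite C] [Nonempty C]
    (hd : ∀ x y z : C, (x ⊓ y) ⊔ z = (x ⊔ z) ⊓ (y ⊔ z)) : Representable C := by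
  let f : LatticeHom C PUnit.{1} :=
    { toFun := fun _ => PUnit.unit
      map_sup' := fun _ _ => rfl
      map_inf' := fun _ _ => rfl }
  exact ext_distrib' f (fun _ => ⟨Classical.arbitrary C, rfl⟩)
    (representable_unique PUnit) (fun x y z _ _ => hd x y z) (fun x y z _ _ _ => hd x y z)

/-- **Distributive fibres over a planar distributive lattice**: every element of `K` covers at
most two elements. -/
theorem over_planar [Finite L] [Nonempty L] (f : LatticeHom L K) (hf : Function.Surjective f)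
    (hKd : ∀ x y z : K, (x ⊓ y) ⊔ z = (x ⊔ z) ⊓ (y ⊔ z))
    (h2 : ∀ t p q r : K, p ⋖ t → q ⋖ t → r ⋖ t → p = q ∨ q = r ∨ p = r)
    (hbot : ∃ (G : Type) (_ : Group G) (_ : Finite G) (H : Subgroup G),
      Nonempty ({l : L // IsMin (f l)} ≃o {W : Subgroup G // H ≤ W}))
    (hd : ∀ x y z, f x = f y → f y = f z → ¬ IsMin (f x) → (x ⊓ y) ⊔ z = (x ⊔ z) ⊓ (y ⊔ z)) :
    Representable L := by
  have hKf : Finite K := Finite.of_surjective f hf
  have hKn : Nonempty K := ⟨f (Classical.arbitrary L)⟩
  exact ext_tree f hf (representable_distrib K hKd) (fun t => treeCovers_of_two (h2 t)) hbot hd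

end Vale.Agent.P183.H330T
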