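import Vale.Agent.P183.H330T.Step
import Vale.Agent.P183.H330.Clauses

/-!
Lattices with distributive fibres over a lattice whose lower covers are arranged in trees.
-/

namespace Vale.Agent.P183.H330T

open Vale.Agent.P183 Vale.Agent.P183.H330

variable {L K : Type} [Lattice L] [Lattice K] {f : LatticeHom L K} {lo hi : K → L}

/-- **Core theorem.** A system of homogeneous spaces represents the lattice. -/
theorem core2 [Finite K] (hf : Function.Surjective f) (S : ∀ t, Sp f lo t)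
    (J : ∀ t r, (S r).X → (S t).X) (B : ∀ s, Subgroup (Equiv.Perm (S s).X)) (ω : ∀ s, (S s).X)
    (hlo0 : ∀ l, lo (f l) ≤ l) (hflo : ∀ k, f (lo k) = k) (hfhi : ∀ k, f (hi k) = k)
    (hhi : ∀ l, l ≤ hi (f l)) (hJ : ∀ t, Good2 S t J) (b0 : K) (hb0 : ∀ k, b0 ≤ k)
    (hH : ∀ t, t ≠ b0 → (S t).Homog)
    (hBiso : ∀ s, ∀ g ∈ B s, ∀ a b, (S s).d (g a) (g b) = (S s).d a b)
    (hBall : ∀ s, s ≠ b0 → ∀ g : Equiv.Perm (S s).X,
      (∀ a b, (S s).d (g a) (g b) = (S s).d a b) → g ∈ B s)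
    (hω : ∀ r t, r ≤ t → J t r (ω r) = ω t)
    (hI : ∀ s (W : Subgroup (Equiv.Perm (S s).X)), W ≤ B s → (∀ g ∈ B s, g (ω s) = ω s → g ∈ W) →
      ∃ c, f c = s ∧ ∀ g ∈ B s, (g ∈ W ↔ (S s).d (g (ω s)) (ω s) ≤ c))
    (hG : ∀ s a b, f a = s → f b = s → (∀ g ∈ B s, (S s).d (g (ω s)) (ω s) ≤ a →
      (S s).d (g (ω s)) (ω s) ≤ b) → a ≤ b)
    (hK : Representable K) : Representable L := by
  classical
  have hfin : ∀ t, Finite (S t).X := fun t => (S t).fin
  have hlo : ∀ k l, k ≤ f l → lo k ≤ l := by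
    intro k l h
    have h1 : f (lo k ⊓ l) = k := by rw [map_inf, hflo, inf_eq_left.2 h]
    have h3 := hlo0 (lo k ⊓ l)
    rw [h1] at h3
    exact h3.trans inf_le_right
  have hM : Representable (Subgroup (∀ t, Equiv.Perm (S t).X)) := representable_subgroup _
  have hext : ∀ s, ∀ g0 ∈ B s, ∃ x ∈ QQ S J B s, x s = g0 := by
    intro s g0 hg0
    obtain ⟨x, hx1, hx2⟩ := exists_ext2 hJ s (fun t hst => hH t (by
      rintro rfl
      exact absurd (hb0 s) (not_le_of_gt hst))) g0 (hBiso s g0 hg0)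
    exact ⟨x, ⟨by rw [hx1]; exact hg0, hx2⟩, hx1⟩
  refine Representable.master f hf (PP S J B ω hlo0) ?_ ?_ ?_ hK hM
  · -- monotone
    intro l l' hll x hx
    have hst : f l ≤ f l' := OrderHomClass.mono f hll
    obtain ⟨⟨hx1, hx2⟩, hx3⟩ := hx
    refine ⟨⟨?_, fun t ht => ⟨(hx2 t (hst.trans ht)).1,
      fun r hr hrt => (hx2 t (hst.trans ht)).2 r (hst.trans hr) hrt⟩⟩, ?_⟩
    · rcases eq_or_lt_of_le hst with h | h
      · rw [← h]; exact hx1
      · refine hBall _ ?_ _ (hx2 _ hst).1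
        rintro h'
        rw [h'] at h
        exact absurd (hb0 _) (not_le_of_gt h)
    · rw [← hω _ _ hst, (hx2 _ hst).2 _ le_rfl hst, (hJ _).isom _ hst]
      exact sup_le (hx3.trans hll) (hlo0 l')
  · -- order embedding
    intro a b hab hP
    have hb' : f (b ⊓ hi (f a)) = f a := by rw [map_inf, hfhi, inf_eq_right.2 hab]
    refine (hG (f a) a (b ⊓ hi (f a)) rfl hb' ?_).trans inf_le_left
    intro g hg hga
    obtain ⟨x, hx1, hx2⟩ := hext (f a) g hg
    have hx : x ∈ PP S J B ω hlo0 a := ⟨hx1, by rw [hx2]; exact hga⟩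
    obtain ⟨_, hx4⟩ := hP hx
    rw [← hω _ _ hab, (hx1.2 _ hab).2 _ le_rfl hab, (hJ _).isom _ hab, hx2] at hx4
    refine le_inf (le_sup_left.trans hx4) ?_
    have := hhi ((S (f a)).d (g (ω (f a))) (ω (f a)))
    rwa [(S (f a)).fd] at this
  · -- intervals
    intro a b m hab hm1 hm2
    let W : Subgroup (Equiv.Perm (S (f a)).X) :=
      m.map (Pi.evalMonoidHom (fun t => Equiv.Perm (S t).X) (f a))
    have hQ : ∀ x ∈ m, x ∈ QQ S J B (f a) := by
      intro x hx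
      have := (hm2 hx).1
      rwa [← hab] at this
    have hW : ∀ g, g ∈ W ↔ ∃ x ∈ m, x (f a) = g := fun g => Subgroup.mem_map
    obtain ⟨c, hc, hcW⟩ := hI (f a) W (by
      intro g hg
      obtain ⟨x, hx, rfl⟩ := (hW g).1 hg
      exact (hQ x hx).1) (by
      intro g hg hgω
      obtain ⟨x, hx1, hx2⟩ := hext (f a) g hg
      refine (hW g).2 ⟨x, hm1 ⟨hx1, ?_⟩, hx2⟩
      rw [hx2, hgω, ((S _).self _ _).2 rfl]
      exact hlo0 a)
    refine ⟨c, hc, ?_⟩
    ext x
    have hcm : x ∈ PP S J B ω hlo0 c ↔ x ∈ QQ S J B (f a) ∧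
        (S (f a)).d (x (f a) (ω (f a))) (ω (f a)) ≤ c := by
      rw [← hc]; exact Iff.rfl
    rw [hcm]
    constructor
    · rintro ⟨h1, h2⟩
      obtain ⟨y, hy, hyx⟩ := (hW _).1 ((hcW _ h1.1).2 h2)
      have h3 : y⁻¹ * x ∈ m := by
        refine hm1 ⟨(QQ S J B (f a)).mul_mem ((QQ S J B (f a)).inv_mem (hQ y hy)) h1, ?_⟩
        show (S (f a)).d ((y (f a))⁻¹ (x (f a) (ω (f a)))) (ω (f a)) ≤ a
        rw [hyx]
        have : (x (f a))⁻¹ (x (f a) (ω (f a))) = ω (f a) := (x (f a)).symm_apply_apply _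
        rw [this, ((S _).self _ _).2 rfl]
        exact hlo0 a
      have := m.mul_mem hy h3
      rwa [mul_inv_cancel_left] at this
    · intro hx
      exact ⟨hQ x hx, (hcW _ (hQ x hx).1).1 ((hW _).2 ⟨x, hx, rfl⟩)⟩

/-- **Distributive fibres over a lattice with tree-like covers**, with a bottom element named. -/
theorem ext_bottom2 [Finite L] (hf : Function.Surjective f) (b0 : K) (hb0 : ∀ k, b0 ≤ k)
    (hbot : ∃ (G : Type) (_ : Group G) (_ : Finite G) (H : Subgroup G),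
      Nonempty ({l : L // f l = b0} ≃o {W : Subgroup G // H ≤ W}))
    (hd : ∀ x y z, f x = f y → f y = f z → f x ≠ b0 → (x ⊓ y) ⊔ z = (x ⊔ z) ⊓ (y ⊔ z))
    (hT : ∀ t : K, TreeCovers t)
    (hK : Representable K) : Representable L := by
  classical
  have hKfin : Finite K := Finite.of_surjective f hf
  obtain ⟨lo, hi, hflo, hfhi, hlo, hhi⟩ := exists_lo_hi_fin f hf
  have hlo' : ∀ k l, k ≤ f l → lo k ≤ l := by
    intro k l h
    have h1 : f (lo k ⊓ l) = k := by rw [map_inf, hflo, inf_eq_left.2 h]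
    have h3 := hlo (lo k ⊓ l)
    rw [h1] at h3
    exact h3.trans inf_le_right
  obtain ⟨G, hG, hGf, H, ⟨θ⟩⟩ := hbot
  obtain ⟨S0, B0, ω0, hB0, hI0, hG0⟩ := exists_bottom (f := f) hflo hfhi hlo hhi b0 G H θ
  obtain ⟨S, hS0, hS1, hS2⟩ := exists_spaces hflo hfhi hlo hhi b0 hb0 S0
    (fun t ht x y z hx hy hz => hd x y z (hx.trans hy.symm) (hy.trans hz.symm) (by rw [hx]; exact ht))
  obtain ⟨J, hJ⟩ := exists_maps2 S hlo' hflo
    (fun t ht x y z hx hy hz => hd x y z (hx.trans hy.symm) (hy.trans hz.symm) (by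
      rw [hx]
      rintro rfl
      obtain ⟨r, hr⟩ := ht
      exact absurd (hb0 r) (not_le_of_gt hr)))
    hT hS2
  subst hS0
  let B : ∀ s, Subgroup (Equiv.Perm (S s).X) := fun s => if h : s = b0 then h ▸ B0 else isoSub (S s)
  have hBb : B b0 = B0 := dif_pos rfl
  have hBn : ∀ s, s ≠ b0 → B s = isoSub (S s) := fun s h => dif_neg h
  have hωω : J b0 b0 ω0 = ω0 := (hJ b0).refl ω0
  refine core2 (hi := hi) hf S J B (fun t => J t b0 ω0) hlo hflo hfhi hhi hJ b0 hb0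
    (fun t ht => (hS1 t ht).1) ?_ ?_ ?_ ?_ ?_ hK
  · intro s g hg
    by_cases hs : s = b0
    · subst hs
      rw [hBb] at hg
      exact hB0 hg
    · rw [hBn s hs] at hg
      exact hg
  · intro s hs g hg
    rw [hBn s hs]
    exact hg
  · intro r t hrt
    exact (hJ t).comp _ _ (hb0 r) hrt ω0
  · intro s
    by_cases hs : s = b0
    · subst hs
      intro W
      rw [hBb]
      show _ → (∀ g ∈ B0, g (J s s ω0) = J s s ω0 → g ∈ W) → _
      rw [hωω]
      exact hI0 W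
    · intro W
      rw [hBn s hs]
      exact homog_int (hS1 s hs).1 (hS1 s hs).2 _ W
  · intro s
    by_cases hs : s = b0
    · subst hs
      intro a b ha hb
      rw [hBb]
      show (∀ g ∈ B0, (S s).d (g (J s s ω0)) (J s s ω0) ≤ a → (S s).d (g (J s s ω0)) (J s s ω0) ≤ b) → _
      rw [hωω]
      exact hG0 a b ha hb
    · intro a b ha hb
      rw [hBn s hs]
      exact homog_gen (hS1 s hs).1 (hS1 s hs).2 _ a b ha

end Vale.Agent.P183.H330T
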