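import Vale.Agent.P183.H330.Ext
import Mathlib.Order.Cover

/-!
Amalgamating the spaces over the lower covers of an element along a tree.
-/

namespace Vale.Agent.P183.H330T

open Vale.Agent.P183.H330

variable {L K : Type} [Lattice L] [Lattice K] {f : LatticeHom L K} {lo hi : K → L}

/-- `g` is a compatible family of isometries over the elements between `s` and `t`. -/
def Compat (S : ∀ t, Sp f lo t) (J : ∀ t r, (S r).X → (S t).X) (s t : K)
    (g : ∀ r, Equiv.Perm (S r).X) : Prop :=
  ∀ r, s ≤ r → r < t → (∀ a b, (S r).d (g r a) (g r b) = (S r).d a b) ∧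
    ∀ q, s ≤ q → q ≤ r → ∀ a, g r (J r q a) = J r q (g q a)

/-- The conditions on the maps into the space over `t`. -/
structure Good2 (S : ∀ t, Sp f lo t) (t : K) (J : ∀ t r, (S r).X → (S t).X) : Prop where
  refl : ∀ a, J t t a = a
  comp : ∀ q r, q ≤ r → r ≤ t → ∀ a, J t r (J r q a) = J t q a
  isom : ∀ r, r ≤ t → ∀ a a', (S t).d (J t r a) (J t r a') = (S r).d a a' ⊔ lo t
  ext : ∀ s g, Compat S J s t g → ∀ r r', s ≤ r → r < t → s ≤ r' → r' < t → ∀ a a',
    (S t).d (J t r (g r a)) (J t r' (g r' a')) = (S t).d (J t r a) (J t r' a')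

theorem Good2.local {S : ∀ t, Sp f lo t} {t : K} {J J' : ∀ t r, (S r).X → (S t).X}
    (h : ∀ r, r ≤ t → J r = J' r) (hg : Good2 S t J) : Good2 S t J' := by
  constructor
  · intro a
    rw [← h t le_rfl]; exact hg.refl a
  · intro q r hqr hrt a
    rw [← h t le_rfl, ← h r hrt]; exact hg.comp q r hqr hrt a
  · intro r hrt a a'
    rw [← h t le_rfl]; exact hg.isom r hrt a a'
  · intro s g hc r r' hsr hr hsr' hr' a a'
    rw [← h t le_rfl]
    refine hg.ext s g ?_ r r' hsr hr hsr' hr' a a'
    intro r hr1 hr2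
    refine ⟨(hc r hr1 hr2).1, fun q hq1 hq2 a => ?_⟩
    rw [h r hr2.le]
    exact (hc r hr1 hr2).2 q hq1 hq2 a

/-- A distance in the fibre over `t` on the disjoint union of the spaces over
`c 0, …, c (k - 1)`. -/
structure Part (S : ∀ t, Sp f lo t) (J : ∀ t r, (S r).X → (S t).X) (t : K) (c : ℕ → K) (k : ℕ)
    (δ : ∀ i, (S (c i)).X → ∀ j, (S (c j)).X → L) : Prop where
  fd : ∀ i, i < k → ∀ j, j < k → ∀ a b, f (δ i a j b) = t
  own : ∀ i, i < k → ∀ a b, δ i a i b = (S (c i)).d a b ⊔ lo t
  symm : ∀ i, i < k → ∀ j, j < k → ∀ a b, δ i a j b = δ j b i a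
  tri : ∀ i, i < k → ∀ j, j < k → ∀ l, l < k → ∀ a b e, δ i a l e ≤ δ i a j b ⊔ δ j b l e
  glue : ∀ i, i < k → ∀ j, j < k → ∀ q, q ≤ c i → q ≤ c j → ∀ g : (S q).X,
    δ i (J (c i) q g) j (J (c j) q g) = lo t
  ext : ∀ s g, Compat S J s t g → ∀ i, i < k → ∀ j, j < k → s ≤ c i → s ≤ c j → ∀ a b,
    δ i (g (c i) a) j (g (c j) b) = δ i a j b

theorem exists_part {S : ∀ t, Sp f lo t} {J : ∀ t r, (S r).X → (S t).X}
    (hlo : ∀ k l, k ≤ f l → lo k ≤ l) (hflo : ∀ k, f (lo k) = k) {t : K}
    (hJ : ∀ r, r < t → Good2 S r J)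
    (hd : (∃ r, r < t) → ∀ x y z, f x = t → f y = t → f z = t →
      (x ⊓ y) ⊔ z = (x ⊔ z) ⊓ (y ⊔ z))
    (n : ℕ) (c : ℕ → K) (hct : ∀ i, i < n → c i < t)
    (hc : ∀ j, j < n → 0 < j → ∃ p, p < j ∧ ∀ i, i < j → c i ⊓ c j ≤ c p) :
    ∀ k, k ≤ n → ∃ δ, Part S J t c k δ := by
  classical
  have hlot : ∀ k, k ≤ t → lo k ≤ lo t := fun k hk => hlo k (lo t) (by rw [hflo]; exact hk)
  intro k
  induction k with
  | zero =>
    intro _
    refine ⟨fun _ _ _ _ => lo t, ?_⟩
    constructor
    · intro i hi; omega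
    · intro i hi; omega
    · intro i hi; omega
    · intro i hi; omega
    · intro i hi; omega
    · intro s g _ i hi; omega
  | succ k ih =>
    intro hkn
    obtain ⟨δ, hδ⟩ := ih (by omega)
    obtain ⟨p, hp⟩ : ∃ p, 0 < k → (p < k ∧ ∀ i, i < k → c i ⊓ c k ≤ c p) := by
      by_cases h0 : 0 < k
      · obtain ⟨p, h1, h2⟩ := hc k (by omega) h0
        exact ⟨p, fun _ => ⟨h1, h2⟩⟩
      · exact ⟨0, fun h => absurd h h0⟩
    have hck : c k < t := hct k (by omega)
    let q : K := c p ⊓ c k
    have hqp : q ≤ c p := inf_le_left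
    have hqk : q ≤ c k := inf_le_right
    let E : ∀ i, (S (c i)).X → (S (c k)).X → (S q).X → L := fun i a b e =>
      δ i a p (J (c p) q e) ⊔ (S (c k)).d (J (c k) q e) b ⊔ lo t
    have hEf : ∀ i, i < k → ∀ a b e, f (E i a b e) = t := by
      intro i hi a b e
      show f (_ ⊔ _ ⊔ lo t) = t
      rw [map_sup, map_sup, hδ.fd i hi p (hp (by omega)).1, (S _).fd, hflo]
      exact sup_eq_right.2 (sup_le le_rfl hck.le)
    have hex : ∀ i (a : (S (c i)).X) (b : (S (c k)).X), ∃ D : L, i < k → f D = t ∧
        (∀ e, D ≤ E i a b e) ∧ (∀ l, (∀ e, l ≤ E i a b e) → l ≤ D) ∧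
        ∀ Y l : L, f Y = t → (∀ e, l ≤ E i a b e ⊔ Y) → l ≤ D ⊔ Y := by
      intro i a b
      by_cases hi : i < k
      · have h1 : Finite (S q).X := (S _).fin
        have h2 : Nonempty (S q).X := (S _).ne
        obtain ⟨D, h1, h2, h3, h4⟩ := le_inf_sup (f := f) (s := t) (E i a b) (hEf i hi a b)
        exact ⟨D, fun _ => ⟨h1, h2, h3, fun Y l hY h => h4 Y l
          (fun x y hx hy => hd ⟨_, hck⟩ x y Y hx hy hY) h⟩⟩
      · exact ⟨lo t, fun h => absurd h hi⟩
    choose D hD using hex
    let δ' : ∀ i, (S (c i)).X → ∀ j, (S (c j)).X → L := fun i a j b =>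
      if i < k then
        (if j < k then δ i a j b else if h : j = k then D i a (h ▸ b) else lo t)
      else
        (if j < k then (if h : i = k then D j b (h ▸ a) else lo t)
          else if h : i = j then (S (c j)).d (h ▸ a) b ⊔ lo t else lo t)
    have h11 : ∀ i, i < k → ∀ j, j < k → ∀ a b, δ' i a j b = δ i a j b := by
      intro i hi j hj a b
      show (if i < k then _ else _) = _
      rw [if_pos hi, if_pos hj]
    have h12 : ∀ i, i < k → ∀ a b, δ' i a k b = D i a b := by
      intro i hi a b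
      show (if i < k then _ else _) = _
      rw [if_pos hi, if_neg (lt_irrefl k), dif_pos rfl]
    have h21 : ∀ j, j < k → ∀ a b, δ' k a j b = D j b a := by
      intro j hj a b
      show (if k < k then _ else _) = _
      rw [if_neg (lt_irrefl k), if_pos hj, dif_pos rfl]
    have h22 : ∀ a b, δ' k a k b = (S (c k)).d a b ⊔ lo t := by
      intro a b
      show (if k < k then _ else _) = _
      rw [if_neg (lt_irrefl k), if_neg (lt_irrefl k), dif_pos rfl]
    have hbase : ∀ e e', (S (c k)).d (J (c k) q e) (J (c k) q e') ⊔ lo t =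
        (S q).d e e' ⊔ lo t := by
      intro e e'
      rw [(hJ _ hck).isom _ hqk, sup_assoc, sup_eq_right.2 (hlot _ hck.le)]
    have hbase' : 0 < k → ∀ e e', δ p (J (c p) q e) p (J (c p) q e') = (S q).d e e' ⊔ lo t := by
      intro h0 e e'
      have h1 := hct p (by have := (hp h0).1; omega)
      rw [hδ.own p (hp h0).1, (hJ _ h1).isom _ hqp, sup_assoc, sup_eq_right.2 (hlot _ h1.le)]
    have hlotle : ∀ i, i < k + 1 → lo (c i) ≤ lo t := fun i hi => hlot _ (hct i (by omega)).le
    -- the triangle inequalities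
    have T1 : ∀ i, i < k → ∀ j, j < k → ∀ a b e, D i a e ≤ δ i a j b ⊔ D j b e := by
      intro i hi j hj a b e
      rw [sup_comm]
      refine (hD j b e hj).2.2.2 _ _ (hδ.fd i hi j hj a b) fun g => ?_
      refine ((hD i a e hi).2.1 g).trans ?_
      refine sup_le (sup_le ?_ ?_) ?_
      · refine (hδ.tri i hi j hj p (hp (by omega)).1 a b _).trans (sup_le le_sup_right ?_)
        exact (le_sup_left.trans le_sup_left).trans le_sup_left
      · exact (le_sup_right.trans le_sup_left).trans le_sup_left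
      · exact le_sup_right.trans le_sup_left
    have T2 : ∀ i, i < k → ∀ l, l < k → ∀ a b e, δ i a l e ≤ D i a b ⊔ D l e b := by
      intro i hi l hl a b e
      have h0 : 0 < k := by omega
      refine (hD i a b hi).2.2.2 _ _ (hD l e b hl).1 fun g => ?_
      rw [sup_comm]
      refine (hD l e b hl).2.2.2 _ _ (hEf i hi a b g) fun g' => ?_
      have h1 := hδ.tri i hi p (hp h0).1 l hl a (J (c p) q g) e
      have h2 := hδ.tri p (hp h0).1 p (hp h0).1 l hl (J (c p) q g) (J (c p) q g') e
      have h3 : δ p (J (c p) q g) p (J (c p) q g') ≤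
          (S (c k)).d (J (c k) q g) b ⊔ (S (c k)).d (J (c k) q g') b ⊔ lo t := by
        rw [hbase' h0, ← hbase]
        refine sup_le_sup_right ?_ _
        refine ((S (c k)).tri _ b _).trans (sup_le_sup_left ?_ _)
        rw [(S (c k)).symm b]
      refine h1.trans (sup_le ?_ (h2.trans (sup_le (h3.trans (sup_le (sup_le ?_ ?_) ?_)) ?_)))
      · exact (le_sup_left.trans le_sup_left).trans le_sup_right
      · exact (le_sup_right.trans le_sup_left).trans le_sup_right
      · exact (le_sup_right.trans le_sup_left).trans le_sup_left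
      · exact le_sup_right.trans le_sup_left
      · rw [hδ.symm p (hp h0).1 l hl]
        exact (le_sup_left.trans le_sup_left).trans le_sup_left
    have T3 : ∀ i, i < k → ∀ a b e, D i a e ≤ D i a b ⊔ ((S (c k)).d b e ⊔ lo t) := by
      intro i hi a b e
      refine (hD i a b hi).2.2.2 _ _ ?_ fun g => ?_
      · rw [map_sup, (S _).fd, hflo]
        exact sup_eq_right.2 hck.le
      · refine ((hD i a e hi).2.1 g).trans (sup_le (sup_le ?_ ?_) ?_)
        · exact (le_sup_left.trans le_sup_left).trans le_sup_left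
        · refine ((S (c k)).tri _ b _).trans (sup_le ?_ ?_)
          · exact (le_sup_right.trans le_sup_left).trans le_sup_left
          · exact le_sup_left.trans le_sup_right
        · exact le_sup_right.trans le_sup_left
    have T4 : ∀ j, j < k → ∀ a b e, (S (c k)).d a e ⊔ lo t ≤ D j b a ⊔ D j b e := by
      intro j hj a b e
      have h0 : 0 < k := by omega
      refine (hD j b a hj).2.2.2 _ _ (hD j b e hj).1 fun g => ?_
      rw [sup_comm (E j b a g)]
      refine (hD j b e hj).2.2.2 _ _ (hEf j hj b a g) fun g' => ?_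
      have h1 := (S (c k)).tri a (J (c k) q g) e
      have h2 := (S (c k)).tri (J (c k) q g) (J (c k) q g') e
      have h3 : (S (c k)).d (J (c k) q g) (J (c k) q g') ≤
          δ j b p (J (c p) q g) ⊔ δ j b p (J (c p) q g') := by
        refine le_sup_left.trans ((hbase g g').le.trans ?_)
        rw [← hbase' h0]
        refine (hδ.tri p (hp h0).1 j hj p (hp h0).1 _ b _).trans (sup_le_sup_right ?_ _)
        rw [hδ.symm p (hp h0).1 j hj]
      refine sup_le (h1.trans (sup_le ?_ (h2.trans (sup_le (h3.trans (sup_le ?_ ?_)) ?_)))) ?_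
      · rw [(S (c k)).symm a]
        exact (le_sup_right.trans le_sup_left).trans le_sup_right
      · exact (le_sup_left.trans le_sup_left).trans le_sup_right
      · exact (le_sup_left.trans le_sup_left).trans le_sup_left
      · exact (le_sup_right.trans le_sup_left).trans le_sup_left
      · exact le_sup_right.trans le_sup_left
    have hle : ∀ i, i < k → ∀ a b, lo t ≤ D i a b := fun i hi a b => hlo t _ (hD i a b hi).1.ge
    have hglue : ∀ i, i < k → ∀ r, r ≤ c i → r ≤ c k → ∀ g : (S r).X,
        D i (J (c i) r g) (J (c k) r g) = lo t := by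
      intro i hi r hri hrk g
      have h0 : 0 < k := by omega
      have hrp : r ≤ c p := (le_inf hri hrk).trans ((hp h0).2 i hi)
      have hrq : r ≤ q := le_inf hrp hrk
      have hpt : c p < t := hct p (by have := (hp h0).1; omega)
      refine le_antisymm (((hD i _ _ hi).2.1 (J q r g)).trans ?_) (hle i hi _ _)
      show δ i (J (c i) r g) p (J (c p) q (J q r g)) ⊔
        (S (c k)).d (J (c k) q (J q r g)) (J (c k) r g) ⊔ lo t ≤ lo t
      rw [(hJ _ hpt).comp _ _ hrq hqp, (hJ _ hck).comp _ _ hrq hqk,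
        hδ.glue i hi p (hp h0).1 r hri hrp, ((S (c k)).self _ _).2 rfl]
      exact sup_le (sup_le le_rfl (hlot _ hck.le)) le_rfl
    have hext : ∀ s g, Compat S J s t g → ∀ i, i < k → s ≤ c i → s ≤ c k → ∀ a b,
        D i (g (c i) a) (g (c k) b) = D i a b := by
      intro s g hg i hi hsi hsk a b
      have h0 : 0 < k := by omega
      have hsp : s ≤ c p := (le_inf hsi hsk).trans ((hp h0).2 i hi)
      have hsq : s ≤ q := le_inf hsp hsk
      have hpt : c p < t := hct p (by have := (hp h0).1; omega)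
      have key : ∀ e, E i (g (c i) a) (g (c k) b) (g q e) = E i a b e := by
        intro e
        show δ i (g (c i) a) p (J (c p) q (g q e)) ⊔
          (S (c k)).d (J (c k) q (g q e)) (g (c k) b) ⊔ lo t = _
        rw [← (hg _ hsp hpt).2 q hsq hqp e, ← (hg _ hsk hck).2 q hsq hqk e,
          hδ.ext s g hg i hi p (hp h0).1 hsi hsp, (hg _ hsk hck).1]
      apply le_antisymm
      · refine (hD i a b hi).2.2.1 _ fun e => ?_
        rw [← key]
        exact (hD i _ _ hi).2.1 _
      · refine (hD i _ _ hi).2.2.1 _ fun e => ?_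
        have h1 := key ((g q).symm e)
        rw [Equiv.apply_symm_apply] at h1
        rw [h1]
        exact (hD i _ _ hi).2.1 _
    have hcase : ∀ i, i < k + 1 → i < k ∨ i = k := fun i hi => by omega
    refine ⟨δ', ?_⟩
    constructor
    · intro i hi j hj a b
      rcases hcase i hi with hi | rfl <;> rcases hcase j hj with hj | rfl
      · rw [h11 i hi j hj]; exact hδ.fd i hi j hj a b
      · rw [h12 i hi]; exact (hD i a b hi).1
      · rw [h21 j hj]; exact (hD j b a hj).1
      · rw [h22, map_sup, (S _).fd, hflo]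
        exact sup_eq_right.2 hck.le
    · intro i hi a b
      rcases hcase i hi with hi | rfl
      · rw [h11 i hi i hi]; exact hδ.own i hi a b
      · exact h22 a b
    · intro i hi j hj a b
      rcases hcase i hi with hi | rfl <;> rcases hcase j hj with hj | rfl
      · rw [h11 i hi j hj, h11 j hj i hi]; exact hδ.symm i hi j hj a b
      · rw [h12 i hi, h21 i hi]
      · rw [h21 j hj, h12 j hj]
      · rw [h22, h22, (S _).symm]
    · intro i hi j hj l hl a b e
      rcases hcase i hi with hi | rfl <;> rcases hcase j hj with hj | rfl <;>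
        rcases hcase l hl with hl | rfl
      · rw [h11 i hi l hl, h11 i hi j hj, h11 j hj l hl]; exact hδ.tri i hi j hj l hl a b e
      · rw [h12 i hi, h11 i hi j hj, h12 j hj]; exact T1 i hi j hj a b e
      · rw [h11 i hi l hl, h12 i hi, h21 l hl]; exact T2 i hi l hl a b e
      · rw [h12 i hi, h12 i hi, h22]; exact T3 i hi a b e
      · rw [h21 l hl, h21 j hj, h11 j hj l hl, hδ.symm j hj l hl, sup_comm]
        exact T1 l hl j hj e b a
      · rw [h22, h21 j hj, h12 j hj]; exact T4 j hj a b e
      · rw [h21 l hl, h22, h21 l hl, sup_comm, (S _).symm a b]; exact T3 l hl e b a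
      · rw [h22, h22, h22]
        exact sup_le (((S _).tri a b e).trans (sup_le (le_sup_left.trans le_sup_left)
          (le_sup_left.trans le_sup_right))) (le_sup_right.trans le_sup_right)
    · intro i hi j hj r hri hrj g
      rcases hcase i hi with hi | rfl <;> rcases hcase j hj with hj | rfl
      · rw [h11 i hi j hj]; exact hδ.glue i hi j hj r hri hrj g
      · rw [h12 i hi]; exact hglue i hi r hri hrj g
      · rw [h21 j hj]; exact hglue j hj r hrj hri g
      · rw [h22, ((S _).self _ _).2 rfl]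
        exact sup_eq_right.2 (hlot _ hck.le)
    · intro s g hg i hi j hj hsi hsj a b
      rcases hcase i hi with hi | rfl <;> rcases hcase j hj with hj | rfl
      · rw [h11 i hi j hj, h11 i hi j hj]; exact hδ.ext s g hg i hi j hj hsi hsj a b
      · rw [h12 i hi, h12 i hi]; exact hext s g hg i hi hsi hsj a b
      · rw [h21 j hj, h21 j hj]; exact hext s g hg j hj hsj hsi b a
      · rw [h22, h22, (hg _ hsi hck).1]

end Vale.Agent.P183.H330T
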