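import Vale.Agent.P183.H330T.Part

/-!
The system of maps over a lattice whose lower covers are arranged in trees, and extension of
isometries.
-/

namespace Vale.Agent.P183.H330T

open Vale.Agent.P183.H330

variable {L K : Type} [Lattice L] [Lattice K] {f : LatticeHom L K} {lo hi : K → L}

/-- The lower covers of `t` can be listed as `c 0, …, c (n - 1)` in such a way that every `c j`
with `0 < j` has some `p < j` with `c i ⊓ c j ≤ c p` for all `i < j`. -/
def TreeCovers (t : K) : Prop :=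
  ∃ (n : ℕ) (c : ℕ → K), (∀ r, r ⋖ t ↔ ∃ i, i < n ∧ c i = r) ∧
    ∀ j, j < n → 0 < j → ∃ p, p < j ∧ ∀ i, i < j → c i ⊓ c j ≤ c p

theorem exists_cover [Finite K] {r t : K} (h : r < t) : ∃ m, r ≤ m ∧ m ⋖ t := by
  obtain ⟨m, hm1, hm2⟩ := (Set.toFinite {x : K | x < t}).exists_le_maximal h
  refine ⟨m, hm1, hm2.1, fun z hz1 hz2 => ?_⟩
  exact absurd (hm2.2 hz2 hz1.le) (not_le_of_gt hz1)

/-- One step of the construction of the maps. -/
theorem exists_step2 [Finite K] {S : ∀ t, Sp f lo t} {J : ∀ t r, (S r).X → (S t).X}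
    (hlo : ∀ k l, k ≤ f l → lo k ≤ l) (hflo : ∀ k, f (lo k) = k) {t : K}
    (hJ : ∀ r, r < t → Good2 S r J)
    (hd : (∃ r, r < t) → ∀ x y z, f x = t → f y = t → f z = t →
      (x ⊓ y) ⊔ z = (x ⊔ z) ⊓ (y ⊔ z))
    (hT : TreeCovers t)
    (hU : (S t).Univ (Nat.card (Σ r : {r : K // r < t}, (S r.1).X))) :
    ∃ J' : ∀ t r, (S r).X → (S t).X, (∀ r, r ≠ t → J' r = J r) ∧ Good2 S t J' := by
  classical
  have hlot : ∀ k k', k ≤ k' → lo k ≤ lo k' := fun k k' hk => hlo k _ (by rw [hflo]; exact hk)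
  obtain ⟨n, c, hc1, hc2⟩ := hT
  have hct : ∀ i, i < n → c i < t := fun i hi => ((hc1 (c i)).2 ⟨i, hi, rfl⟩).lt
  obtain ⟨δ, hδ⟩ := exists_part hlo hflo hJ hd n c hct hc2 n le_rfl
  let A : Type := Σ r : {r : K // r < t}, (S r.1).X
  have hAfin : Finite A := by
    have : ∀ r : {r : K // r < t}, Finite (S r.1).X := fun r => (S r.1).fin
    exact inferInstanceAs (Finite (Σ r : {r : K // r < t}, (S r.1).X))
  have hidx : ∀ r, r < t → ∃ i, i < n ∧ r ≤ c i := by
    intro r hr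
    obtain ⟨m, hm1, hm2⟩ := exists_cover hr
    obtain ⟨i, hi, rfl⟩ := (hc1 m).1 hm2
    exact ⟨i, hi, hm1⟩
  choose! idx hidx1 hidx2 using hidx
  let P : ∀ r, (S r).X → (S (c (idx r))).X := fun r a => J (c (idx r)) r a
  let δA : A → A → L := fun x y => δ (idx x.1.1) (P x.1.1 x.2) (idx y.1.1) (P y.1.1 y.2)
  have hδA : ∀ (x y : A), δA x y = δ (idx x.1.1) (P x.1.1 x.2) (idx y.1.1) (P y.1.1 y.2) :=
    fun _ _ => rfl
  have hself : ∀ x, δA x x = lo t := by
    intro x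
    rw [hδA, hδ.own _ (hidx1 _ x.1.2), ((S _).self _ _).2 rfl]
    exact sup_eq_right.2 (hlot _ _ (hct _ (hidx1 _ x.1.2)).le)
  obtain ⟨ι, hι⟩ := hU A le_rfl δA
    (fun x y => hδ.fd _ (hidx1 _ x.1.2) _ (hidx1 _ y.1.2) _ _) hself
    (fun x y => hδ.symm _ (hidx1 _ x.1.2) _ (hidx1 _ y.1.2) _ _)
    (fun x y z => hδ.tri _ (hidx1 _ x.1.2) _ (hidx1 _ y.1.2) _ (hidx1 _ z.1.2) _ _ _)
  have hcomp0 : ∀ (q r : K) (hq : q < t) (hr : r < t), q ≤ r → ∀ a : (S q).X,
      δA ⟨⟨r, hr⟩, J r q a⟩ ⟨⟨q, hq⟩, a⟩ = lo t := by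
    intro q r hq hr hqr a
    show δ (idx r) (J (c (idx r)) r (J r q a)) (idx q) (J (c (idx q)) q a) = lo t
    rw [(hJ _ (hct _ (hidx1 r hr))).comp _ _ hqr (hidx2 r hr)]
    exact hδ.glue _ (hidx1 r hr) _ (hidx1 q hq) q (hqr.trans (hidx2 r hr)) (hidx2 q hq) a
  have hne : Nonempty (S t).X := (S t).ne
  let new : ∀ r, (S r).X → (S t).X := fun r a =>
    if h : r < t then ι ⟨⟨r, h⟩, a⟩ else if h' : r = t then h' ▸ a else Classical.arbitrary _
  have new_lt : ∀ r (h : r < t) a, new r a = ι ⟨⟨r, h⟩, a⟩ := fun r h a => dif_pos h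
  have new_self : ∀ a, new t a = a := by
    intro a
    show (if h : t < t then ι ⟨⟨t, h⟩, a⟩ else if h' : t = t then h' ▸ a
      else Classical.arbitrary _) = a
    rw [dif_neg (lt_irrefl t), dif_pos rfl]
  let J' : ∀ t r, (S r).X → (S t).X := Function.update J t new
  have hJt : J' t = new := Function.update_self _ _ _
  have hJr : ∀ r, r ≠ t → J' r = J r := fun r h => Function.update_of_ne h _ _
  have hcomp : ∀ q r, q ≤ r → r ≤ t → ∀ a, J' t r (J' r q a) = J' t q a := by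
    intro q r hqr hrt a
    rcases eq_or_lt_of_le hrt with rfl | hr
    · rw [hJt, new_self]
    · have hq : q < t := hqr.trans_lt hr
      rw [hJt, hJr r hr.ne, new_lt r hr, new_lt q hq]
      apply ((S t).self _ _).1
      rw [hι]
      exact hcomp0 q r hq hr hqr a
  refine ⟨J', hJr, ⟨fun a => by rw [hJt]; exact new_self a, hcomp, ?_, ?_⟩⟩
  · intro r hrt a a'
    rcases eq_or_lt_of_le hrt with rfl | hr
    · rw [hJt, new_self, new_self]
      exact (sup_eq_left.2 (hlo _ _ ((S _).fd _ _).ge)).symm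
    · rw [hJt, new_lt r hr, new_lt r hr, hι]
      show δ (idx r) (J (c (idx r)) r a) (idx r) (J (c (idx r)) r a') = _
      have h1 := hct _ (hidx1 r hr)
      rw [hδ.own _ (hidx1 r hr), (hJ _ h1).isom _ (hidx2 r hr), sup_assoc,
        sup_eq_right.2 (hlot _ _ h1.le)]
  · intro s g hg r r' hsr hr hsr' hr' a a'
    have hg' : Compat S J s t g := by
      intro u hu1 hu2
      refine ⟨(hg u hu1 hu2).1, fun q hq1 hq2 a => ?_⟩
      have h1 := (hg u hu1 hu2).2 q hq1 hq2 a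
      rwa [hJr u hu2.ne] at h1
    rw [hJt, new_lt r hr, new_lt r' hr', new_lt r hr, new_lt r' hr', hι, hι]
    show δ (idx r) (J (c (idx r)) r (g r a)) (idx r') (J (c (idx r')) r' (g r' a')) =
      δ (idx r) (J (c (idx r)) r a) (idx r') (J (c (idx r')) r' a')
    have h1 := hct _ (hidx1 r hr)
    have h2 := hct _ (hidx1 r' hr')
    have h3 := hsr.trans (hidx2 r hr)
    have h4 := hsr'.trans (hidx2 r' hr')
    rw [← (hg' _ h3 h1).2 _ hsr (hidx2 r hr), ← (hg' _ h4 h2).2 _ hsr' (hidx2 r' hr')]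
    exact hδ.ext s g hg' _ (hidx1 r hr) _ (hidx1 r' hr') h3 h4 _ _

/-- Existence of the maps. -/
theorem exists_maps2 [Finite K] (S : ∀ t, Sp f lo t) (hlo : ∀ k l, k ≤ f l → lo k ≤ l)
    (hflo : ∀ k, f (lo k) = k)
    (hd : ∀ t, (∃ r, r < t) → ∀ x y z, f x = t → f y = t → f z = t →
      (x ⊓ y) ⊔ z = (x ⊔ z) ⊓ (y ⊔ z))
    (hT : ∀ t : K, TreeCovers t)
    (hU : ∀ t, (S t).Univ (Nat.card (Σ r : {r : K // r < t}, (S r.1).X))) :
    ∃ J : ∀ t r, (S r).X → (S t).X, ∀ t, Good2 S t J := by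
  have hne : ∀ t, Nonempty (∀ r, (S r).X → (S t).X) := fun t => by
    have := (S t).ne
    exact ⟨fun _ _ => Classical.arbitrary _⟩
  exact exists_family (C := fun t => ∀ r, (S r).X → (S t).X) (fun t J => Good2 S t J)
    (fun t J J' h hg => hg.local h)
    (fun t J hJ => exists_step2 hlo hflo hJ (hd t) (hT t) (hU t))

/-- Every isometry of a space extends to a compatible family above it. -/
theorem exists_ext2 [Finite K] {S : ∀ t, Sp f lo t} {J : ∀ t r, (S r).X → (S t).X}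
    (hJ : ∀ t, Good2 S t J) (s : K) (hH : ∀ t, s < t → (S t).Homog) (g0 : Equiv.Perm (S s).X)
    (hg0 : ∀ a b, (S s).d (g0 a) (g0 b) = (S s).d a b) :
    ∃ g : ∀ t, Equiv.Perm (S t).X, g s = g0 ∧ ∀ t, s ≤ t →
      (∀ a b, (S t).d (g t a) (g t b) = (S t).d a b) ∧
      ∀ r, s ≤ r → r ≤ t → ∀ a, g t (J t r a) = J t r (g r a) := by
  classical
  obtain ⟨g, hg⟩ := exists_family (K := K) (C := fun t => Equiv.Perm (S t).X)
    (fun t g => s ≤ t → g s = g0 ∧ (∀ a b, (S t).d (g t a) (g t b) = (S t).d a b) ∧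
      ∀ r, s ≤ r → r ≤ t → ∀ a, g t (J t r a) = J t r (g r a)) (by
    intro t g g' h hg hst
    obtain ⟨h1, h2, h3⟩ := hg hst
    refine ⟨by rw [← h s hst]; exact h1, by rw [← h t le_rfl]; exact h2, ?_⟩
    intro r hsr hrt a
    rw [← h t le_rfl, ← h r hrt]
    exact h3 r hsr hrt a) (by
    intro t g hprev
    by_cases hst : s ≤ t
    swap
    · exact ⟨g, fun _ _ => rfl, fun h => absurd h hst⟩
    rcases eq_or_lt_of_le hst with hst' | hst'
    · subst hst'
      refine ⟨Function.update g s g0, fun r hr => Function.update_of_ne hr _ _, fun _ => ?_⟩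
      rw [Function.update_self]
      refine ⟨rfl, hg0, fun r hsr hrs a => ?_⟩
      have : s = r := le_antisymm hsr hrs
      subst this
      rw [Function.update_self, (hJ s).refl, (hJ s).refl]
    · have hprev' : Compat S J s t g := fun r hsr hrt => (hprev r hrt hsr).2
      let A : Set (S t).X := {x | ∃ r, s ≤ r ∧ r < t ∧ ∃ a : (S r).X, J t r a = x}
      have hA : ∀ x : A, ∃ r, s ≤ r ∧ r < t ∧ ∃ a : (S r).X, J t r a = x.1 := fun x => x.2
      choose rr h1 h2 aa h3 using hA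
      let σ : (S t).X → (S t).X := fun x =>
        if h : x ∈ A then J t (rr ⟨x, h⟩) (g (rr ⟨x, h⟩) (aa ⟨x, h⟩)) else x
      have hσ : ∀ x (h : x ∈ A), σ x = J t (rr ⟨x, h⟩) (g (rr ⟨x, h⟩) (aa ⟨x, h⟩)) :=
        fun x h => dif_pos h
      obtain ⟨γ, hγ1, hγ2⟩ := hH t hst' A σ (by
        intro x hx y hy
        rw [hσ x hx, hσ y hy, (hJ t).ext s g hprev' _ _ (h1 _) (h2 _) (h1 _) (h2 _), h3, h3])
      refine ⟨Function.update g t γ, fun r hr => Function.update_of_ne hr _ _, fun _ => ?_⟩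
      have hsne : s ≠ t := hst'.ne
      rw [Function.update_self, Function.update_of_ne hsne]
      refine ⟨(hprev s hst' le_rfl).1, hγ1, fun r hsr hrt a => ?_⟩
      rcases eq_or_lt_of_le hrt with hrt' | hrt'
      · subst hrt'
        rw [Function.update_self, (hJ r).refl, (hJ r).refl]
      · rw [Function.update_of_ne hrt'.ne]
        have hx : J t r a ∈ A := ⟨r, hsr, hrt', a, rfl⟩
        rw [hγ2 _ hx, hσ _ hx]
        apply ((S t).self _ _).1
        rw [(hJ t).ext s g hprev' _ _ (h1 _) (h2 _) hsr hrt', h3]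
        exact ((S t).self _ _).2 rfl)
  refine ⟨g, (hg s le_rfl).1, fun t ht => (hg t ht).2⟩

end Vale.Agent.P183.H330T
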